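import Mathlib

/-!
# P038: the inequality between the two joint minimum cuts (MF)

`N a` is the closed out-neighbourhood of `a` in an oriented graph.  A pair of families `(B, C)` is
outer feasible if `N a ⊆ B a`, `N a ⊆ C a` and never `b ∈ B a`, `a ∈ C b` for `a ≠ b`; a pair
`(X, Y)` is inner feasible if `a ∈ X a`, `a ∈ Y a` and never `b ∈ N[X a]`, `a ∈ N[Y b]` for
`a ≠ b`.  The minimum of the energy over inner feasible pairs is at most the minimum over outer
feasible pairs.
-/

set_option linter.unusedSectionVars false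

namespace Vale.Agent.P038.H391

open Finset

variable {V : Type*} [Fintype V] [DecidableEq V]

/-- Weight of a set. -/
def W (w : V → ℝ) (S : Finset V) : ℝ := ∑ x ∈ S, w x

/-- Closed out-neighbourhood of a set. -/
def nb (N : V → Finset V) (S : Finset V) : Finset V := S.biUnion N

/-- Boundary function. -/
def hh (N : V → Finset V) (w : V → ℝ) (S : Finset V) : ℝ := W w (nb N S) - W w S

theorem W_mono {w : V → ℝ} (hw : ∀ v, 0 ≤ w v) {S T : Finset V} (h : S ⊆ T) : W w S ≤ W w T :=
  Finset.sum_le_sum_of_subset_of_nonneg h (fun i _ _ => hw i)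

theorem W_union_inter (w : V → ℝ) (S T : Finset V) :
    W w (S ∪ T) + W w (S ∩ T) = W w S + W w T := Finset.sum_union_inter

theorem mem_nb {N : V → Finset V} {S : Finset V} {y : V} : y ∈ nb N S ↔ ∃ x ∈ S, y ∈ N x := by
  simp [nb]

theorem nb_union (N : V → Finset V) (S T : Finset V) : nb N (S ∪ T) = nb N S ∪ nb N T := by
  ext y
  simp only [mem_nb, Finset.mem_union]
  constructor
  · rintro ⟨x, hx | hx, h⟩
    · exact Or.inl ⟨x, hx, h⟩
    · exact Or.inr ⟨x, hx, h⟩
  · rintro (⟨x, hx, h⟩ | ⟨x, hx, h⟩)
    · exact ⟨x, Or.inl hx, h⟩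
    · exact ⟨x, Or.inr hx, h⟩

theorem nb_inter_subset (N : V → Finset V) (S T : Finset V) :
    nb N (S ∩ T) ⊆ nb N S ∩ nb N T := by
  intro y
  simp only [mem_nb, Finset.mem_inter]
  rintro ⟨x, ⟨h1, h2⟩, h⟩
  exact ⟨⟨x, h1, h⟩, ⟨x, h2, h⟩⟩

/-- The boundary function is submodular. -/
theorem hh_submod (N : V → Finset V) {w : V → ℝ} (hw : ∀ v, 0 ≤ w v) (S T : Finset V) :
    hh N w (S ∪ T) + hh N w (S ∩ T) ≤ hh N w S + hh N w T := by
  have h1 := W_union_inter w S T
  have h2 := W_union_inter w (nb N S) (nb N T)
  have h3 := W_mono hw (nb_inter_subset N S T)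
  unfold hh
  rw [nb_union]
  linarith

/-! ## The layer cake lemma -/

theorem layer (w : V → ℝ) (hw : ∀ v, 0 ≤ w v) (R : V → V → Prop) :
    ∀ (n : ℕ) (α γ : V → ℝ), (univ.filter (fun s => α s ≠ 0)).card ≤ n →
      (∀ s, 0 ≤ α s) → (∀ z, 0 ≤ γ z) → (∀ s z, α s ≠ 0 → R s z → α s ≤ γ z) →
      (∀ S : Finset V, S ⊆ univ.filter (fun s => α s ≠ 0) →
        ∀ S' : Finset V, (∀ z, z ∈ S' ↔ ∃ s ∈ S, R s z) → W w S ≤ W w S') →
      ∑ s, w s * α s ≤ ∑ z, w z * γ z := by
  classical
  intro n
  induction n with
  | zero =>
    intro α γ hc hα hγ _ _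
    have h0 : ∀ s, α s = 0 := by
      intro s
      by_contra h
      have : s ∈ univ.filter (fun s => α s ≠ 0) := by simp [h]
      have := Finset.card_pos.2 ⟨s, this⟩
      omega
    have : ∑ s, w s * α s = 0 := Finset.sum_eq_zero (fun s _ => by rw [h0 s]; ring)
    rw [this]
    exact Finset.sum_nonneg (fun z _ => mul_nonneg (hw z) (hγ z))
  | succ n ih =>
    intro α γ hc hα hγ hR hS
    by_cases hne : (univ.filter (fun s => α s ≠ 0)).Nonempty
    · obtain ⟨s0, hs0, hmin⟩ := Finset.exists_min_image (univ.filter (fun s => α s ≠ 0)) α hne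
      have hs0' : α s0 ≠ 0 := by simpa using hs0
      set m := α s0 with hm
      have hm0 : 0 < m := lt_of_le_of_ne (hα s0) (Ne.symm hs0')
      set S := univ.filter (fun s => α s ≠ 0) with hSdef
      set S' : Finset V := univ.filter (fun z => ∃ s ∈ S, R s z) with hS'def
      have hSS : W w S ≤ W w S' := hS S (le_refl _) S' (fun z => by simp [hS'def])
      have key := ih (fun s => α s - (if s ∈ S then m else 0))
        (fun z => γ z - (if z ∈ S' then m else 0)) ?_ ?_ ?_ ?_ ?_
      · have e1 : ∑ s, w s * (α s - (if s ∈ S then m else 0)) = ∑ s, w s * α s - m * W w S := by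
          have : ∀ s, w s * (α s - (if s ∈ S then m else 0)) =
              w s * α s - (if s ∈ S then m * w s else 0) := by
            intro s
            split_ifs <;> ring
          simp only [this]
          rw [Finset.sum_sub_distrib]
          congr 1
          rw [Finset.sum_ite_mem, Finset.univ_inter, W, Finset.mul_sum]
        have e2 : ∑ s, w s * (γ s - (if s ∈ S' then m else 0)) = ∑ s, w s * γ s - m * W w S' := by
          have : ∀ s, w s * (γ s - (if s ∈ S' then m else 0)) =
              w s * γ s - (if s ∈ S' then m * w s else 0) := by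
            intro s
            split_ifs <;> ring
          simp only [this]
          rw [Finset.sum_sub_distrib]
          congr 1
          rw [Finset.sum_ite_mem, Finset.univ_inter, W, Finset.mul_sum]
        rw [e1, e2] at key
        have := mul_le_mul_of_nonneg_left hSS hm0.le
        linarith
      · -- the support shrinks
        have hsub : univ.filter (fun s => α s - (if s ∈ S then m else 0) ≠ 0) ⊆ S.erase s0 := by
          intro s hs
          simp only [Finset.mem_filter, Finset.mem_univ, true_and] at hs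
          rw [Finset.mem_erase]
          by_cases h1 : s ∈ S
          · refine ⟨?_, h1⟩
            rintro rfl
            apply hs
            rw [if_pos h1]
            ring
          · exfalso
            rw [if_neg h1] at hs
            apply h1
            simp only [hSdef, Finset.mem_filter, Finset.mem_univ, true_and]
            simpa using hs
        have := Finset.card_le_card hsub
        rw [Finset.card_erase_of_mem hs0] at this
        omega
      · intro s
        show 0 ≤ α s - (if s ∈ S then m else 0)
        split_ifs with h1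
        · have := hmin s h1
          linarith
        · have := hα s
          linarith
      · intro z
        show 0 ≤ γ z - (if z ∈ S' then m else 0)
        split_ifs with h1
        · simp only [hS'def, Finset.mem_filter, Finset.mem_univ, true_and] at h1
          obtain ⟨s, hs, hsz⟩ := h1
          have h2 := hmin s hs
          have h3 : α s ≠ 0 := by simpa [hSdef] using hs
          have := hR s z h3 hsz
          linarith
        · have := hγ z
          linarith
      · intro s z hs hsz
        show α s - (if s ∈ S then m else 0) ≤ γ z - (if z ∈ S' then m else 0)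
        have h1 : s ∈ S := by
          by_contra h1
          change α s - (if s ∈ S then m else 0) ≠ 0 at hs
          rw [if_neg h1] at hs
          apply h1
          simp only [hSdef, Finset.mem_filter, Finset.mem_univ, true_and]
          simpa using hs
        have h2 : z ∈ S' := by
          simp only [hS'def, Finset.mem_filter, Finset.mem_univ, true_and]
          exact ⟨s, h1, hsz⟩
        rw [if_pos h1, if_pos h2]
        have h3 : α s ≠ 0 := by simpa [hSdef] using h1
        have := hR s z h3 hsz
        linarith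
      · intro T hT T' hT'
        refine hS T ?_ T' hT'
        intro s hs
        have := hT hs
        simp only [Finset.mem_filter, Finset.mem_univ, true_and] at this
        by_contra h1
        rw [if_neg h1] at this
        apply h1
        simp only [hSdef, Finset.mem_filter, Finset.mem_univ, true_and]
        simpa using this
    · refine ih α γ ?_ hα hγ hR hS
      rw [Finset.not_nonempty_iff_eq_empty] at hne
      rw [hne]
      simp

/-! ## The restricted minima `k(P, Q; T)` -/

/-- Admissible sets for `kf`. -/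
def adm (P Q T : Finset V) : Finset (Finset V) :=
  univ.filter (fun Y => P ∪ (T ∩ Q) ⊆ Y ∧ Y ⊆ P ∪ Q)

theorem mem_adm {P Q T Y : Finset V} : Y ∈ adm P Q T ↔ P ∪ (T ∩ Q) ⊆ Y ∧ Y ⊆ P ∪ Q := by
  simp [adm]

theorem adm_nonempty (P Q T : Finset V) : (adm P Q T).Nonempty :=
  ⟨P ∪ Q, mem_adm.2 ⟨Finset.union_subset_union_right Finset.inter_subset_right, le_refl _⟩⟩

/-- `min {h(Y) : P ∪ (T ∩ Q) ⊆ Y ⊆ P ∪ Q}`. -/
noncomputable def kf (h : Finset V → ℝ) (P Q T : Finset V) : ℝ :=
  (adm P Q T).inf' (adm_nonempty P Q T) h

theorem kf_le (h : Finset V → ℝ) {P Q T Y : Finset V} (hY : Y ∈ adm P Q T) :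
    kf h P Q T ≤ h Y := Finset.inf'_le h hY

theorem kf_att (h : Finset V → ℝ) (P Q T : Finset V) : ∃ Y ∈ adm P Q T, kf h P Q T = h Y :=
  Finset.exists_mem_eq_inf' (adm_nonempty P Q T) h

theorem kf_mono (h : Finset V → ℝ) {P Q T T' : Finset V} (hT : T ⊆ T') :
    kf h P Q T ≤ kf h P Q T' := by
  obtain ⟨Y, hY, e⟩ := kf_att h P Q T'
  rw [e]
  apply kf_le
  rw [mem_adm] at hY ⊢
  exact ⟨(Finset.union_subset_union_right (Finset.inter_subset_inter_right hT)).trans hY.1, hY.2⟩

theorem kf_congr (h : Finset V → ℝ) {P Q T T' : Finset V} (hT : P ∪ (T ∩ Q) = P ∪ (T' ∩ Q)) :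
    kf h P Q T = kf h P Q T' := by
  have : adm P Q T = adm P Q T' := by
    ext Y
    rw [mem_adm, mem_adm, hT]
  unfold kf
  simp only [this]

/-- The exchange inequality (2). -/
theorem kf_exchange (h : Finset V → ℝ)
    (hsub : ∀ S T, h (S ∪ T) + h (S ∩ T) ≤ h S + h T) {P Q m M T : Finset V} {b : V}
    (hPQ : P ⊆ Q) (hmM : m ⊆ M) (hmP : m ⊆ P) (hMQ : M ⊆ Q) (hb : b ∈ M) :
    kf h P Q (insert b T) - kf h P Q T ≤ kf h m M (insert b T) - kf h m M T := by
  obtain ⟨Y, hY, eY⟩ := kf_att h m M (insert b T)
  obtain ⟨Z, hZ, eZ⟩ := kf_att h P Q T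
  rw [mem_adm] at hY hZ
  have hbY : b ∈ Y := hY.1 (Finset.mem_union_right _ (Finset.mem_inter.2
    ⟨Finset.mem_insert_self _ _, hb⟩))
  have h1 : Y ∪ Z ∈ adm P Q (insert b T) := by
    rw [mem_adm]
    constructor
    · intro x hx
      rw [Finset.mem_union] at hx
      rcases hx with hx | hx
      · exact Finset.mem_union_right _ (hZ.1 (Finset.mem_union_left _ hx))
      · rw [Finset.mem_inter, Finset.mem_insert] at hx
        rcases hx with ⟨rfl | hx, hxQ⟩
        · exact Finset.mem_union_left _ hbY
        · exact Finset.mem_union_right _ (hZ.1 (Finset.mem_union_right _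
            (Finset.mem_inter.2 ⟨hx, hxQ⟩)))
    · apply Finset.union_subset _ hZ.2
      refine hY.2.trans ?_
      exact (Finset.union_subset_union hmP hMQ)
  have h2 : Y ∩ Z ∈ adm m M T := by
    rw [mem_adm]
    constructor
    · intro x hx
      rw [Finset.mem_union] at hx
      rw [Finset.mem_inter]
      rcases hx with hx | hx
      · exact ⟨hY.1 (Finset.mem_union_left _ hx), hZ.1 (Finset.mem_union_left _ (hmP hx))⟩
      · rw [Finset.mem_inter] at hx
        exact ⟨hY.1 (Finset.mem_union_right _ (Finset.mem_inter.2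
          ⟨Finset.mem_insert_of_mem hx.1, hx.2⟩)),
          hZ.1 (Finset.mem_union_right _ (Finset.mem_inter.2 ⟨hx.1, hMQ hx.2⟩))⟩
    · exact Finset.inter_subset_left.trans hY.2
  have h3 := kf_le h h1
  have h4 := kf_le h h2
  have h5 := hsub Y Z
  rw [eY, eZ]
  linarith

/-- The meet over closed in-neighbours. -/
def meet (N : V → Finset V) (B : V → Finset V) (z : V) : Finset V :=
  univ.filter (fun b => ∀ s, z ∈ N s → b ∈ B s)

theorem mem_meet {N B : V → Finset V} {z b : V} : b ∈ meet N B z ↔ ∀ s, z ∈ N s → b ∈ B s := by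
  simp [meet]

/-- Intersections of row optimal sets are optimal upwards. -/
theorem meet_opt (N : V → Finset V) (h : Finset V → ℝ)
    (hsub : ∀ S T, h (S ∪ T) + h (S ∩ T) ≤ h S + h T) {B U : V → Finset V}
    (hBU : ∀ a, B a ⊆ U a) (hR : ∀ a Y, B a ⊆ Y → Y ⊆ U a → h (B a) ≤ h Y) (z : V)
    {Y : Finset V} (h1 : meet N B z ⊆ Y) (h2 : Y ⊆ meet N U z) : h (meet N B z) ≤ h Y := by
  have key : ∀ A : Finset V, A ⊆ univ.filter (fun s => z ∈ N s) →
      h (Y.filter (fun b => ∀ s ∈ A, b ∈ B s)) ≤ h Y := by
    intro A
    induction A using Finset.induction_on with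
    | empty =>
      intro _
      simp
    | insert a A ha ih =>
      intro hA
      have h3 := ih (fun x hx => hA (Finset.mem_insert_of_mem hx))
      have haz : z ∈ N a := by
        have := hA (Finset.mem_insert_self a A)
        simpa using this
      set S := Y.filter (fun b => ∀ s ∈ A, b ∈ B s) with hS
      have e : Y.filter (fun b => ∀ s ∈ insert a A, b ∈ B s) = S ∩ B a := by
        ext b
        simp only [hS, Finset.mem_filter, Finset.mem_inter, Finset.mem_insert, forall_eq_or_imp]
        tauto
      rw [e]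
      have h4 := hsub S (B a)
      have h5 : h (B a) ≤ h (S ∪ B a) := by
        apply hR a _ Finset.subset_union_right
        apply Finset.union_subset _ (hBU a)
        intro x hx
        rw [hS, Finset.mem_filter] at hx
        exact (mem_meet.1 (h2 hx.1)) a haz
      linarith
  have h3 := key (univ.filter (fun s => z ∈ N s)) (le_refl _)
  have e : Y.filter (fun b => ∀ s ∈ univ.filter (fun s => z ∈ N s), b ∈ B s) = meet N B z := by
    ext b
    rw [Finset.mem_filter, mem_meet]
    constructor
    · rintro ⟨_, hb⟩ s hs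
      exact hb s (by simp [hs])
    · intro hb
      refine ⟨h1 (mem_meet.2 hb), fun s hs => hb s ?_⟩
      simpa using hs
  rw [e] at h3
  exact h3

/-- The gap inequality. -/
theorem gap_ineq (N : V → Finset V) (w : V → ℝ) (hw : ∀ v, 0 ≤ w v) (h : Finset V → ℝ)
    (hsub : ∀ S T, h (S ∪ T) + h (S ∩ T) ≤ h S + h T) {B U : V → Finset V}
    (hBU : ∀ a, B a ⊆ U a) (hR : ∀ a Y, B a ⊆ Y → Y ⊆ U a → h (B a) ≤ h Y)
    (hC : ∀ b, ∀ S : Finset V, (∀ s ∈ S, b ∈ U s ∧ b ∉ B s) →
      ∀ S' : Finset V, (∀ z, z ∈ S' ↔ ∃ s ∈ S, z ∈ N s ∧ b ∈ meet N U z) → W w S ≤ W w S') :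
    ∑ a, w a * (h (U a) - h (B a)) ≤ ∑ z, w z * (h (meet N U z) - h (meet N B z)) := by
  have hmM : ∀ z, meet N B z ⊆ meet N U z := fun z b hb =>
    mem_meet.2 (fun s hs => hBU s (mem_meet.1 hb s hs))
  have step : ∀ T : Finset V,
      ∑ a, w a * (kf h (B a) (U a) T - kf h (B a) (U a) ∅) ≤
        ∑ z, w z * (kf h (meet N B z) (meet N U z) T - kf h (meet N B z) (meet N U z) ∅) := by
    intro T
    induction T using Finset.induction_on with
    | empty => simp
    | insert b T hbT ih =>
      have key : ∑ a, w a * (kf h (B a) (U a) (insert b T) - kf h (B a) (U a) T) ≤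
          ∑ z, w z * (kf h (meet N B z) (meet N U z) (insert b T) -
            kf h (meet N B z) (meet N U z) T) := by
        apply layer w hw (fun s z => z ∈ N s ∧ b ∈ meet N U z) _
          (fun a => kf h (B a) (U a) (insert b T) - kf h (B a) (U a) T)
          (fun z => kf h (meet N B z) (meet N U z) (insert b T) -
            kf h (meet N B z) (meet N U z) T) (le_refl _)
        · intro s
          exact sub_nonneg.2 (kf_mono h (Finset.subset_insert b T))
        · intro z
          exact sub_nonneg.2 (kf_mono h (Finset.subset_insert b T))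
        · rintro s z _ ⟨hz, hb⟩
          apply kf_exchange h hsub (hBU s) (hmM z) _ _ hb
          · exact fun x hx => mem_meet.1 hx s hz
          · exact fun x hx => mem_meet.1 hx s hz
        · intro S hS S' hS'
          apply hC b S _ S' hS'
          intro s hs
          have h1 := hS hs
          simp only [Finset.mem_filter, Finset.mem_univ, true_and] at h1
          constructor
          · by_contra h2
            apply h1
            rw [sub_eq_zero]
            apply kf_congr
            congr 1
            ext x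
            simp only [Finset.mem_inter, Finset.mem_insert]
            constructor
            · rintro ⟨rfl | hx, hx'⟩
              · exact absurd hx' h2
              · exact ⟨hx, hx'⟩
            · rintro ⟨hx, hx'⟩
              exact ⟨Or.inr hx, hx'⟩
          · intro h2
            apply h1
            rw [sub_eq_zero]
            apply kf_congr
            ext x
            simp only [Finset.mem_union, Finset.mem_inter, Finset.mem_insert]
            constructor
            · rintro (hx | ⟨rfl | hx, hx'⟩)
              · exact Or.inl hx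
              · exact Or.inl h2
              · exact Or.inr ⟨hx, hx'⟩
            · rintro (hx | ⟨hx, hx'⟩)
              · exact Or.inl hx
              · exact Or.inr ⟨Or.inr hx, hx'⟩
      have e1 : ∑ a, w a * (kf h (B a) (U a) (insert b T) - kf h (B a) (U a) ∅) =
          ∑ a, w a * (kf h (B a) (U a) (insert b T) - kf h (B a) (U a) T) +
          ∑ a, w a * (kf h (B a) (U a) T - kf h (B a) (U a) ∅) := by
        rw [← Finset.sum_add_distrib]
        exact Finset.sum_congr rfl (fun a _ => by ring)
      have e2 : ∑ z, w z * (kf h (meet N B z) (meet N U z) (insert b T) -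
            kf h (meet N B z) (meet N U z) ∅) =
          ∑ z, w z * (kf h (meet N B z) (meet N U z) (insert b T) -
            kf h (meet N B z) (meet N U z) T) +
          ∑ z, w z * (kf h (meet N B z) (meet N U z) T -
            kf h (meet N B z) (meet N U z) ∅) := by
        rw [← Finset.sum_add_distrib]
        exact Finset.sum_congr rfl (fun a _ => by ring)
      rw [e1, e2]
      linarith
  have hfin := step univ
  refine le_trans (Finset.sum_le_sum (fun a _ => ?_))
    (le_trans hfin (Finset.sum_le_sum (fun z _ => ?_)))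
  · apply mul_le_mul_of_nonneg_left _ (hw a)
    have h1 : kf h (B a) (U a) ∅ ≤ h (B a) := by
      apply kf_le
      rw [mem_adm]
      simp
    have h2 : h (U a) ≤ kf h (B a) (U a) univ := by
      obtain ⟨Y, hY, e⟩ := kf_att h (B a) (U a) univ
      rw [mem_adm, Finset.univ_inter] at hY
      have : Y = U a := by
        rw [Finset.union_eq_right.2 (hBU a)] at hY
        exact Finset.Subset.antisymm hY.2 hY.1
      rw [e, this]
    linarith
  · apply mul_le_mul_of_nonneg_left _ (hw z)
    have h1 : kf h (meet N B z) (meet N U z) univ ≤ h (meet N U z) := by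
      apply kf_le
      rw [mem_adm, Finset.univ_inter, Finset.union_eq_right.2 (hmM z)]
      exact ⟨le_refl _, le_refl _⟩
    have h2 : h (meet N B z) ≤ kf h (meet N B z) (meet N U z) ∅ := by
      obtain ⟨Y, hY, e⟩ := kf_att h (meet N B z) (meet N U z) ∅
      rw [mem_adm, Finset.union_eq_right.2 (hmM z)] at hY
      rw [e]
      exact meet_opt N h hsub hBU hR z (Finset.subset_union_left.trans hY.1) hY.2
    linarith

/-! ## Product measures of relations -/

/-- The product measure of a family. -/
def mu (w : V → ℝ) (P : V → Finset V) : ℝ := ∑ a, w a * W w (P a)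

/-- The constant (total mass plus diagonal mass). -/
def tot (w : V → ℝ) : ℝ := ∑ a, w a * (∑ b, w b) + ∑ a, w a * w a

theorem W_eq_ite (w : V → ℝ) (S : Finset V) : W w S = ∑ b, if b ∈ S then w b else 0 := by
  rw [W, ← Finset.sum_filter]
  congr 1
  ext x
  simp

theorem mu_eq (w : V → ℝ) (P : V → Finset V) :
    mu w P = ∑ a, ∑ b, if b ∈ P a then w a * w b else 0 := by
  unfold mu
  apply Finset.sum_congr rfl
  intro a _
  rw [W_eq_ite, Finset.mul_sum]
  apply Finset.sum_congr rfl
  intro b _
  split_ifs <;> simp

theorem mu_eq' (w : V → ℝ) (P : V → Finset V) :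
    mu w P = ∑ a, ∑ b, if a ∈ P b then w a * w b else 0 := by
  rw [mu_eq, Finset.sum_comm]
  apply Finset.sum_congr rfl
  intro a _
  apply Finset.sum_congr rfl
  intro b _
  split_ifs
  · ring
  · rfl

theorem tot_eq (w : V → ℝ) :
    tot w = ∑ a, ∑ b, (w a * w b + if a = b then w a * w b else 0) := by
  unfold tot
  rw [← Finset.sum_add_distrib]
  apply Finset.sum_congr rfl
  intro a _
  rw [Finset.sum_add_distrib, ← Finset.mul_sum]
  congr 1
  rw [Finset.sum_ite_eq]
  simp

theorem mu_le (w : V → ℝ) (hw : ∀ v, 0 ≤ w v) (P Q : V → Finset V)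
    (h : ∀ a b, b ∈ P a → a ∈ Q b → a = b) : mu w P + mu w Q ≤ tot w := by
  rw [mu_eq, mu_eq' w Q, tot_eq, ← Finset.sum_add_distrib]
  apply Finset.sum_le_sum
  intro a _
  rw [← Finset.sum_add_distrib]
  apply Finset.sum_le_sum
  intro b _
  have h0 : 0 ≤ w a * w b := mul_nonneg (hw a) (hw b)
  by_cases h1 : b ∈ P a <;> by_cases h2 : a ∈ Q b <;> by_cases h3 : a = b
  all_goals simp only [h1, h2, if_true, if_false]
  all_goals first
    | exact absurd (h a b h1 h2) h3
    | (simp only [if_pos h3]; linarith)
    | (simp only [if_neg h3]; linarith)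

theorem mu_ge (w : V → ℝ) (hw : ∀ v, 0 ≤ w v) (P Q : V → Finset V)
    (hP : ∀ a, a ∈ P a) (hQ : ∀ a, a ∈ Q a)
    (h : ∀ a b, b ∉ P a → a ∈ Q b) : tot w ≤ mu w P + mu w Q := by
  rw [mu_eq, mu_eq' w Q, tot_eq, ← Finset.sum_add_distrib]
  apply Finset.sum_le_sum
  intro a _
  rw [← Finset.sum_add_distrib]
  apply Finset.sum_le_sum
  intro b _
  have h0 : 0 ≤ w a * w b := mul_nonneg (hw a) (hw b)
  by_cases h3 : a = b
  · subst h3
    rw [if_pos rfl, if_pos (hP a), if_pos (hQ a)]
  · rw [if_neg h3]
    by_cases h1 : b ∈ P a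
    · rw [if_pos h1]
      split_ifs <;> linarith
    · rw [if_neg h1, if_pos (h a b h1)]
      linarith

/-! ## Feasible pairs -/

/-- Outer feasible pairs. -/
def F0 (N B C : V → Finset V) : Prop :=
  (∀ a, N a ⊆ B a) ∧ (∀ a, N a ⊆ C a) ∧ ∀ a b, b ∈ B a → a ∈ C b → a = b

/-- Inner feasible pairs. -/
def F2 (N X Y : V → Finset V) : Prop :=
  (∀ a, a ∈ X a) ∧ (∀ a, a ∈ Y a) ∧ ∀ a b, b ∈ nb N (X a) → a ∈ nb N (Y b) → a = b

/-- The energy of a pair. -/
def EE (N : V → Finset V) (w : V → ℝ) (B C : V → Finset V) : ℝ :=
  ∑ a, w a * hh N w (B a) + ∑ a, w a * hh N w (C a)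

theorem EE_eq (N : V → Finset V) (w : V → ℝ) (B C : V → Finset V) :
    EE N w B C = ∑ a, w a * hh N w (B a) + (mu w (fun b => nb N (C b)) - mu w C) := by
  unfold EE mu hh
  congr 1
  rw [← Finset.sum_sub_distrib]
  exact Finset.sum_congr rfl (fun a _ => by ring)

theorem sum_update (N : V → Finset V) (w : V → ℝ) (B : V → Finset V) (a : V) (Y : Finset V) :
    ∑ x, w x * hh N w (Function.update B a Y x) =
      ∑ x, w x * hh N w (B x) + w a * (hh N w Y - hh N w (B a)) := by
  have e1 : ∀ x, w x * hh N w (Function.update B a Y x) =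
      w x * hh N w (B x) + (if x = a then w a * (hh N w Y - hh N w (B a)) else 0) := by
    intro x
    by_cases h : x = a
    · subst h
      simp only [Function.update_self, if_true]
      ring
    · rw [Function.update_of_ne h, if_neg h, add_zero]
  simp only [e1]
  rw [Finset.sum_add_distrib]
  congr 1
  rw [Finset.sum_ite_eq']
  simp

/-- **The inequality (MF) at an outer minimiser.** -/
theorem mf_ineq (N : V → Finset V) (hN : ∀ a, a ∈ N a)
    (hA : ∀ a b, b ∈ N a → a ∈ N b → a = b) (w : V → ℝ) (hw : ∀ v, 0 < w v)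
    {B C : V → Finset V} (hF : F0 N B C)
    (hmin : ∀ B' C', F0 N B' C' → EE N w B C ≤ EE N w B' C') :
    F2 N (meet N B) (meet N C) ∧ EE N w (meet N B) (meet N C) ≤ EE N w B C := by
  have hw0 : ∀ v, 0 ≤ w v := fun v => (hw v).le
  obtain ⟨hB, hC, hBC⟩ := hF
  set U : V → Finset V := fun a => univ.filter (fun b => b = a ∨ a ∉ C b) with hU
  have mU : ∀ a b, b ∈ U a ↔ (b = a ∨ a ∉ C b) := by
    intro a b
    simp [hU]
  have hBU : ∀ a, B a ⊆ U a := by
    intro a b hb
    rw [mU]
    by_cases h : a ∈ C b
    · exact Or.inl (hBC a b hb h).symm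
    · exact Or.inr h
  -- row optimality
  have hR : ∀ a Y, B a ⊆ Y → Y ⊆ U a → hh N w (B a) ≤ hh N w Y := by
    intro a Y h1 h2
    have h3 : F0 N (Function.update B a Y) C := by
      refine ⟨?_, hC, ?_⟩
      · intro x
        by_cases h : x = a
        · subst h
          rw [Function.update_self]
          exact (hB x).trans h1
        · rw [Function.update_of_ne h]
          exact hB x
      · intro x b hb hx
        by_cases h : x = a
        · subst h
          rw [Function.update_self] at hb
          rcases (mU x b).1 (h2 hb) with h4 | h4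
          · exact h4.symm
          · exact absurd hx h4
        · rw [Function.update_of_ne h] at hb
          exact hBC x b hb hx
    have h4 := hmin _ _ h3
    unfold EE at h4
    rw [sum_update] at h4
    have h5 : 0 ≤ w a * (hh N w Y - hh N w (B a)) := by linarith
    have h6 := nonneg_of_mul_nonneg_right h5 (hw a)
    linarith
  -- column optimality
  have hCol : ∀ b, ∀ S : Finset V, (∀ s ∈ S, b ∈ U s ∧ b ∉ B s) →
      ∀ S' : Finset V, (∀ z, z ∈ S' ↔ ∃ s ∈ S, z ∈ N s ∧ b ∈ meet N U z) →
      W w S ≤ W w S' := by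
    intro b S hS S' hS'
    have hbS : ∀ s ∈ S, s ∉ C b := by
      intro s hs
      rcases (mU s b).1 (hS s hs).1 with h | h
      · subst h
        exact absurd (hB b (hN b)) (hS b hs).2
      · exact h
    have h3 : F0 N B (Function.update C b (C b ∪ S)) := by
      refine ⟨hB, ?_, ?_⟩
      · intro x
        by_cases h : x = b
        · subst h
          rw [Function.update_self]
          exact (hC x).trans Finset.subset_union_left
        · rw [Function.update_of_ne h]
          exact hC x
      · intro x y hy hx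
        by_cases h : y = b
        · subst h
          rw [Function.update_self, Finset.mem_union] at hx
          rcases hx with hx | hx
          · exact hBC x y hy hx
          · exact absurd hy (hS x hx).2
        · rw [Function.update_of_ne h] at hx
          exact hBC x y hy hx
    have h4 := hmin _ _ h3
    unfold EE at h4
    rw [sum_update] at h4
    have h5 : 0 ≤ w b * (hh N w (C b ∪ S) - hh N w (C b)) := by linarith
    have h6 := nonneg_of_mul_nonneg_right h5 (hw b)
    have h7 : W w (C b ∪ S) = W w (C b) + W w S := by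
      unfold W
      apply Finset.sum_union
      rw [Finset.disjoint_left]
      intro s hs hs'
      exact hbS s hs' hs
    have h8 : W w (nb N (C b ∪ S)) ≤ W w (nb N (C b)) + W w S' := by
      have h9 : nb N (C b ∪ S) ⊆ nb N (C b) ∪ S' := by
        intro z hz
        rw [Finset.mem_union]
        by_cases hz1 : z ∈ nb N (C b)
        · exact Or.inl hz1
        · right
          rw [nb_union, Finset.mem_union] at hz
          rcases hz with hz | hz
          · exact absurd hz hz1
          · obtain ⟨s, hs, hzs⟩ := mem_nb.1 hz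
            rw [hS']
            refine ⟨s, hs, hzs, mem_meet.2 (fun t ht => ?_)⟩
            rw [mU]
            right
            intro h10
            exact hz1 (mem_nb.2 ⟨t, h10, ht⟩)
      have h10 := W_mono hw0 h9
      have h11 := W_union_inter w (nb N (C b)) S'
      have h12 : 0 ≤ W w (nb N (C b) ∩ S') := Finset.sum_nonneg (fun i _ => hw0 i)
      linarith
    unfold hh at h6
    rw [h7] at h6
    linarith
  have hgap := gap_ineq N w hw0 (hh N w) (hh_submod N hw0) hBU hR hCol
  -- auxiliary facts
  have aB : ∀ a, a ∈ meet N B a := fun a => mem_meet.2 (fun s hs => hB s hs)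
  have aC : ∀ a, a ∈ meet N C a := fun a => mem_meet.2 (fun s hs => hC s hs)
  have fact : ∀ a b, b ∈ nb N (meet N U a) → a ∈ nb N (meet N C b) → a = b := by
    intro a b hb ha
    obtain ⟨x, hx, hbx⟩ := mem_nb.1 hb
    obtain ⟨t, ht, hat⟩ := mem_nb.1 ha
    rw [mem_meet] at hx ht
    have h1 := ht x hbx
    have h2 := (mU t x).1 (hx t hat)
    rcases h2 with h2 | h2
    · subst h2
      have h3 := (mU a x).1 (hx a (hN a))
      rcases h3 with h3 | h3
      · subst h3
        exact hBC x b (hB x hbx) (ht b (hN b))
      · exact absurd (hC x hat) h3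
    · exact absurd h1 h2
  refine ⟨⟨aB, aC, ?_⟩, ?_⟩
  · intro a b hb ha
    apply fact a b _ ha
    obtain ⟨x, hx, hbx⟩ := mem_nb.1 hb
    exact mem_nb.2 ⟨x, mem_meet.2 (fun s hs => hBU s (mem_meet.1 hx s hs)), hbx⟩
  · have m1 : tot w ≤ mu w (fun a => nb N (U a)) + mu w (meet N C) := by
      apply mu_ge w hw0
      · intro a
        exact mem_nb.2 ⟨a, (mU a a).2 (Or.inl rfl), hN a⟩
      · exact aC
      · intro a b hb
        rw [mem_meet]
        intro x hx
        by_contra h
        exact hb (mem_nb.2 ⟨x, (mU a x).2 (Or.inr h), hx⟩)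
    have m2 : mu w (fun a => nb N (meet N U a)) + mu w (fun b => nb N (meet N C b)) ≤ tot w :=
      mu_le w hw0 _ _ fact
    have m3 : mu w U + mu w C ≤ tot w := by
      apply mu_le w hw0
      intro a b hb ha
      rcases (mU a b).1 hb with h | h
      · exact h.symm
      · exact absurd ha h
    have m4 : tot w ≤ mu w (meet N U) + mu w (fun b => nb N (C b)) := by
      apply mu_ge w hw0
      · intro a
        exact mem_meet.2 (fun s hs => hBU s (hB s hs))
      · intro a
        exact mem_nb.2 ⟨a, hC a (hN a), hN a⟩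
      · intro a b hb
        rw [mem_meet] at hb
        push Not at hb
        obtain ⟨s, hs, hbs⟩ := hb
        rw [mU] at hbs
        push Not at hbs
        exact mem_nb.2 ⟨s, hbs.2, hs⟩
    rw [EE_eq, EE_eq]
    have e : ∑ a, w a * (hh N w (U a) - hh N w (B a)) =
        mu w (fun a => nb N (U a)) - mu w U - ∑ a, w a * hh N w (B a) := by
      unfold mu hh
      rw [← Finset.sum_sub_distrib, ← Finset.sum_sub_distrib]
      exact Finset.sum_congr rfl (fun a _ => by ring)
    have e' : ∑ z, w z * (hh N w (meet N U z) - hh N w (meet N B z)) =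
        mu w (fun a => nb N (meet N U a)) - mu w (meet N U) -
          ∑ a, w a * hh N w (meet N B a) := by
      unfold mu hh
      rw [← Finset.sum_sub_distrib, ← Finset.sum_sub_distrib]
      exact Finset.sum_congr rfl (fun a _ => by ring)
    rw [e, e'] at hgap
    linarith

/-- **Seymour from (G).**  There is no oriented graph with positive weights in which every vertex
has an out-neighbour and the strict inequality (G) holds for all sets. -/
theorem no_strict [Nonempty V] (N : V → Finset V) (hN : ∀ a, a ∈ N a)
    (hA : ∀ a b, b ∈ N a → a ∈ N b → a = b) (w : V → ℝ) (hw : ∀ v, 0 < w v)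
    (hout : ∀ a, ∃ b ∈ N a, b ≠ a)
    (hG : ∀ X : Finset V, nb N X ≠ X → hh N w (nb N X) < hh N w X) : False := by
  classical
  -- an inner minimiser
  have hne2 : (univ.filter (fun q : (V → Finset V) × (V → Finset V) => F2 N q.1 q.2)).Nonempty := by
    refine ⟨(fun a => {a}, fun a => {a}), ?_⟩
    simp only [Finset.mem_filter, Finset.mem_univ, true_and]
    refine ⟨fun a => Finset.mem_singleton_self a, fun a => Finset.mem_singleton_self a, ?_⟩
    intro a b hb ha
    obtain ⟨x, hx, hbx⟩ := mem_nb.1 hb
    obtain ⟨y, hy, hay⟩ := mem_nb.1 ha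
    rw [Finset.mem_singleton] at hx hy
    subst hx hy
    exact hA _ _ hbx hay
  obtain ⟨⟨X, Y⟩, hXY, hmin2⟩ := Finset.exists_min_image _ (fun q => EE N w q.1 q.2) hne2
  simp only [Finset.mem_filter, Finset.mem_univ, true_and] at hXY hmin2
  have hne0 : (univ.filter (fun q : (V → Finset V) × (V → Finset V) => F0 N q.1 q.2)).Nonempty := by
    refine ⟨(N, N), ?_⟩
    simp only [Finset.mem_filter, Finset.mem_univ, true_and]
    exact ⟨fun a => le_refl _, fun a => le_refl _, hA⟩
  obtain ⟨⟨B, C⟩, hBC, hmin0⟩ := Finset.exists_min_image _ (fun q => EE N w q.1 q.2) hne0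
  simp only [Finset.mem_filter, Finset.mem_univ, true_and] at hBC hmin0
  have h1 := mf_ineq N hN hA w hw hBC (fun B' C' h => hmin0 (B', C') h)
  have h2 := hmin2 (meet N B, meet N C) h1.1
  obtain ⟨hX, hY, hXY3⟩ := hXY
  have h3 : F0 N (fun a => nb N (X a)) (fun a => nb N (Y a)) := by
    refine ⟨?_, ?_, hXY3⟩
    · intro a b hb
      exact mem_nb.2 ⟨a, hX a, hb⟩
    · intro a b hb
      exact mem_nb.2 ⟨a, hY a, hb⟩
  have h4 := hmin0 (fun a => nb N (X a), fun a => nb N (Y a)) h3
  have hle : ∀ S : Finset V, hh N w (nb N S) ≤ hh N w S := by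
    intro S
    by_cases h : nb N S = S
    · rw [h]
    · exact (hG S h).le
  -- some row is not closed
  have hex : ∃ a, nb N (X a) ≠ X a := by
    by_contra hcon
    push Not at hcon
    have hne : (univ.filter (fun K : Finset V => K.Nonempty ∧ nb N K ⊆ K)).Nonempty := by
      refine ⟨univ, ?_⟩
      simp only [Finset.mem_filter, Finset.mem_univ, true_and]
      exact ⟨Finset.univ_nonempty, Finset.subset_univ _⟩
    obtain ⟨K, hK, hKmin⟩ := Finset.exists_min_image _ Finset.card hne
    simp only [Finset.mem_filter, Finset.mem_univ, true_and] at hK hKmin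
    obtain ⟨⟨a, ha⟩, hKc⟩ := hK
    obtain ⟨b, hb, hba⟩ := hout a
    have hbK : b ∈ K := hKc (mem_nb.2 ⟨a, ha, hb⟩)
    have hK' : (X b ∩ K).Nonempty ∧ nb N (X b ∩ K) ⊆ X b ∩ K := by
      refine ⟨⟨b, Finset.mem_inter.2 ⟨hX b, hbK⟩⟩, ?_⟩
      refine (nb_inter_subset N (X b) K).trans ?_
      rw [hcon b]
      exact Finset.inter_subset_inter_left hKc
    have hcard := hKmin _ hK'
    have heq : X b ∩ K = K := Finset.eq_of_subset_of_card_le Finset.inter_subset_right hcard
    have haX : a ∈ X b := by
      have : a ∈ X b ∩ K := by rw [heq]; exact ha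
      exact (Finset.mem_inter.1 this).1
    have : b = a := hXY3 b a (by rw [hcon b]; exact haX) (mem_nb.2 ⟨a, hY a, hb⟩)
    exact hba this
  have hlt : EE N w (fun a => nb N (X a)) (fun a => nb N (Y a)) < EE N w X Y := by
    unfold EE
    apply add_lt_add_of_lt_of_le
    · obtain ⟨a, ha⟩ := hex
      apply Finset.sum_lt_sum
      · intro i _
        exact mul_le_mul_of_nonneg_left (hle (X i)) (hw i).le
      · exact ⟨a, Finset.mem_univ a, mul_lt_mul_of_pos_left (hG _ ha) (hw a)⟩
    · apply Finset.sum_le_sum
      intro i _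
      exact mul_le_mul_of_nonneg_left (hle (Y i)) (hw i).le
  have h5 : EE N w X Y ≤ EE N w (meet N B) (meet N C) := h2
  have h6 : EE N w B C ≤ EE N w (fun a => nb N (X a)) (fun a => nb N (Y a)) := h4
  linarith [h1.2]

end Vale.Agent.P038.H391
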