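import Vale.Agent.P038.H71.Plan
import Vale.Agent.P038.H391.MF

/-!
# Seymour's second neighbourhood conjecture: the glue

The normal form of a counterexample (`NFmin`, lambda = 1) satisfies the strict inequality (G) for
all sets; `no_strict` excludes it.
-/

namespace Vale.Agent.P038.H391

open Finset

universe u

section

variable {V : Type u} [Fintype V] [DecidableEq V]

/-- The closed out-neighbourhood of a vertex. -/
noncomputable def NC (D : OGraph V) (a : V) : Finset V := H139.cl D {a}

theorem mem_NC {D : OGraph V} {a b : V} : b ∈ NC D a ↔ b = a ∨ D.arc a b := by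
  unfold NC
  rw [H139.mem_cl]
  simp

theorem nb_NC (D : OGraph V) (S : Finset V) : nb (NC D) S = H139.cl D S := by
  ext z
  rw [mem_nb, H139.mem_cl]
  constructor
  · rintro ⟨x, hx, hz⟩
    rcases mem_NC.1 hz with rfl | h
    · exact Or.inl hx
    · exact Or.inr ⟨x, hx, h⟩
  · rintro (h | ⟨x, hx, h⟩)
    · exact ⟨z, h, mem_NC.2 (Or.inl rfl)⟩
    · exact ⟨x, hx, mem_NC.2 (Or.inr h)⟩

theorem strictG {D : OGraph V} {w : V → ℝ} (h : H139.NFmin 1 D w) (X : Finset V)
    (hX : nb (NC D) X ≠ X) : hh (NC D) w (nb (NC D) X) < hh (NC D) w X := by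
  rw [nb_NC] at hX
  set L := H71.Lx D X with hL
  have mL : ∀ z, z ∈ L ↔ z ∉ X ∧ ∃ y ∈ X, D.arc y z := by
    intro z
    have : z ∈ L ↔ z ∈ H139.outS D X \ X := Iff.rfl
    rw [this, Finset.mem_sdiff, H139.mem_outS]
    tauto
  have hne : L.Nonempty := by
    by_contra hcon
    rw [Finset.not_nonempty_iff_eq_empty] at hcon
    apply hX
    ext z
    rw [H139.mem_cl]
    constructor
    · rintro (h1 | h1)
      · exact h1
      · by_contra h2
        have : z ∈ L := (mL z).2 ⟨h2, h1⟩
        rw [hcon] at this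
        exact absurd this (Finset.notMem_empty z)
    · exact Or.inl
  have key := H71.pplus h X L (le_refl _) hne
  have hw : ∀ v, 0 ≤ w v := fun v => (h.pos v).le
  have e1 : H139.cl D X = X ∪ L := by
    ext z
    rw [H139.mem_cl, Finset.mem_union, mL]
    tauto
  have d1 : Disjoint X L := by
    rw [Finset.disjoint_left]
    intro z hz hz'
    exact ((mL z).1 hz').1 hz
  set M := H139.cl D (H139.cl D X) \ H139.cl D X with hM
  have hsub : H139.cl D X ⊆ H139.cl D (H139.cl D X) := fun z hz => H139.mem_cl.2 (Or.inl hz)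
  have e2 : W w (H139.cl D (H139.cl D X)) = W w M + W w (H139.cl D X) := by
    have := Finset.sum_sdiff (f := w) hsub
    unfold W
    rw [hM]
    linarith
  have e3 : W w (H139.cl D X) = W w X + W w L := by
    rw [e1]
    exact Finset.sum_union d1
  have hML : L ∪ M ⊆ H139.cl D L \ (H139.cl D (L \ L) ∪ X) := by
    intro z hz
    rw [Finset.mem_sdiff, Finset.mem_union, Finset.sdiff_self]
    have h0 : z ∉ H139.cl D (∅ : Finset V) := by
      rw [H139.mem_cl]
      rintro (h1 | ⟨y, hy, _⟩)
      · exact absurd h1 (Finset.notMem_empty z)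
      · exact absurd hy (Finset.notMem_empty y)
    rcases Finset.mem_union.1 hz with hz | hz
    · refine ⟨H139.mem_cl.2 (Or.inl hz), ?_⟩
      rintro (h1 | h1)
      · exact h0 h1
      · exact ((mL z).1 hz).1 h1
    · rw [hM, Finset.mem_sdiff] at hz
      obtain ⟨hz1, hz2⟩ := hz
      have hzX : z ∉ X := fun h1 => hz2 (H139.mem_cl.2 (Or.inl h1))
      refine ⟨?_, ?_⟩
      · rcases H139.mem_cl.1 hz1 with h1 | ⟨y, hy, hyz⟩
        · exact absurd h1 hz2
        · rw [e1, Finset.mem_union] at hy
          rcases hy with hy | hy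
          · exact absurd (H139.mem_cl.2 (Or.inr ⟨y, hy, hyz⟩)) hz2
          · exact H139.mem_cl.2 (Or.inr ⟨y, hy, hyz⟩)
      · rintro (h1 | h1)
        · exact h0 h1
        · exact hzX h1
  have d2 : Disjoint L M := by
    rw [Finset.disjoint_left]
    intro z hz hz'
    rw [hM, Finset.mem_sdiff, e1] at hz'
    exact hz'.2 (Finset.mem_union_right _ hz)
  have e4 : W w (L ∪ M) = W w L + W w M := Finset.sum_union d2
  have e5 := W_mono hw hML
  have key' : W w (H139.cl D L \ (H139.cl D (L \ L) ∪ X)) < (1 + 1) * W w L := key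
  unfold hh
  rw [nb_NC, nb_NC]
  linarith

end

theorem noNF {V : Type u} [Fintype V] [Nonempty V] (D : OGraph V) (w : V → ℝ) :
    ¬ H139.NF 1 D w := by
  classical
  intro h0
  obtain ⟨D, w, h⟩ := H139.exists_nfmin h0
  refine no_strict (NC D) (fun a => mem_NC.2 (Or.inl rfl)) ?_ w h.pos ?_
    (fun X hX => strictG h X hX)
  · intro a b hb ha
    rcases mem_NC.1 hb with h1 | h1
    · exact h1.symm
    · rcases mem_NC.1 ha with h2 | h2
      · exact h2
      · exact absurd h2 (D.asymm _ _ h1)
  · intro a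
    by_contra hcon
    push Not at hcon
    have h1 := h.one a
    have hN : N1 D a = ∅ := by
      rw [Finset.eq_empty_iff_forall_notMem]
      intro b hb
      rw [mem_N1] at hb
      have h2 := hcon b (mem_NC.2 (Or.inr hb))
      rw [h2] at hb
      exact D.loopless _ hb
    unfold H139.Fw at h1
    rw [hN] at h1
    have h2 : 0 ≤ H139.W w (N2 D a) := Finset.sum_nonneg (fun v _ => (h.pos v).le)
    have h3 : H139.W w (∅ : Finset V) = 0 := by
      unfold H139.W
      simp
    rw [h3] at h1
    linarith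

/-- **Seymour's second neighbourhood conjecture, weighted form.** -/
theorem snc_weighted {V : Type u} [Fintype V] [Nonempty V] (D : OGraph V) (w : V → ℝ)
    (hw : ∀ v, 0 ≤ w v) : ∃ v, ∑ u ∈ N1 D v, w u ≤ ∑ u ∈ N2 D v, w u := by
  obtain ⟨v, hv⟩ := H139.snc_of_noNF (lam := 1) zero_le_one (fun V _ _ D w => noNF D w) D w hw
  exact ⟨v, by linarith⟩

/-- **Seymour's second neighbourhood conjecture.** -/
theorem snc {V : Type u} [Fintype V] [Nonempty V] (D : OGraph V) :
    ∃ v, (N1 D v).card ≤ (N2 D v).card := by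
  obtain ⟨v, hv⟩ := snc_weighted D (fun _ => (1 : ℝ)) (fun _ => zero_le_one)
  refine ⟨v, ?_⟩
  simp only [Finset.sum_const, nsmul_eq_mul, mul_one] at hv
  exact_mod_cast hv

end Vale.Agent.P038.H391
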